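import Vale.Agent.P177.Final
import Vale.Agent.P177.Bridge

open CategoryTheory TensorProduct

universe u

theorem Vale.Agent.Results.P177.Full.result (R : Type u) [CommRing R] [IsRegularLocalRing R]
    (d : ℕ) (hd : ringKrullDim R = d) (M N : Type u) [AddCommGroup M] [Module R M]
    [Module.Finite R M] [Nontrivial M] [AddCommGroup N] [Module R N] [Module.Finite R N]
    [Nontrivial N] (hl : Module.length R (M ⊗[R] N) ≠ ⊤)
    (hdim : Module.supportDim R M + Module.supportDim R N = ringKrullDim R) :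
    (∀ i : ℕ, Module.length R
      (((Tor (ModuleCat.{u} R) i).obj (ModuleCat.of R M)).obj (ModuleCat.of R N)) ≠ ⊤) ∧
    (∀ i : ℕ, d < i → Module.length R
      (((Tor (ModuleCat.{u} R) i).obj (ModuleCat.of R M)).obj (ModuleCat.of R N)) = 0) ∧
    0 < ∑ i ∈ Finset.range (d + 1), (-1 : ℤ) ^ i * ((Module.length R
      (((Tor (ModuleCat.{u} R) i).obj (ModuleCat.of R M)).obj (ModuleCat.of R N))).toNat : ℤ) :=
  Vale.Agent.P177.serre_of_posM (Vale.Agent.P177.regL_of_isRegularLocalRing R hd)
    (Vale.Agent.P177.regL_of_isRegularLocalRing R hd).posM hl (hdim.trans hd)
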